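import Mathlib

/-!
# P199, transcendence degree of quotients of finitely generated domains

Dimension bookkeeping for finitely generated domains over a field: it drops strictly at nonzero
primes and by exactly one at minimal primes over principal ideals.
-/

namespace Vale.Agent.P199

open Cardinal MvPolynomial

universe u

variable {k R : Type u} [Field k] [CommRing R] [IsDomain R] [Algebra k R]

/-- The transcendence degree drops strictly at a nonzero prime. -/
theorem trdeg_quotient_lt [Algebra.FiniteType k R] {C : Ideal R} [C.IsPrime] (hC : C ≠ ⊥) :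
    Algebra.trdeg k (R ⧸ C) < Algebra.trdeg k R := by
  refine lt_of_le_of_ne
    (trdeg_le_of_surjective (Ideal.Quotient.mkₐ k C) (Ideal.Quotient.mkₐ_surjective k C)) ?_
  intro he
  have : FaithfulSMul k (R ⧸ C) :=
    (faithfulSMul_iff_algebraMap_injective _ _).2 (algebraMap k (R ⧸ C)).injective
  obtain ⟨s, hs⟩ := exists_isTranscendenceBasis k (R ⧸ C)
  have hfin : Algebra.trdeg k R < ℵ₀ := trdeg_lt_aleph0_of_finiteType
  have hsfin : Finite s := Cardinal.lt_aleph0_iff_finite.1 (hs.cardinalMk_eq_trdeg ▸ he ▸ hfin)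
  let y : s → R := fun i => Function.surjInv (Ideal.Quotient.mkₐ_surjective k C) i.1
  have hy : ∀ i, Ideal.Quotient.mkₐ k C (y i) = i.1 := fun i =>
    Function.surjInv_eq (Ideal.Quotient.mkₐ_surjective k C) i.1
  have hcomp : (Ideal.Quotient.mkₐ k C) ∘ y = (Subtype.val : s → R ⧸ C) := funext hy
  have hyi : AlgebraicIndependent k y :=
    AlgebraicIndependent.of_comp (Ideal.Quotient.mkₐ k C) (hcomp ▸ hs.1)
  have hyb : IsTranscendenceBasis k y :=
    hyi.isTranscendenceBasis_of_trdeg_le_of_finite (by rw [← he, hs.cardinalMk_eq_trdeg])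
  obtain ⟨f, hfC, hf0⟩ := Submodule.exists_mem_ne_zero_of_ne_bot hC
  obtain ⟨a, ha0, b, hb⟩ :=
    (hyb.isAlgebraic.isAlgebraic f).exists_nonzero_dvd (mem_nonZeroDivisors_of_ne_zero hf0)
  have ha2 : (a : R) ∈ (MvPolynomial.aeval (R := k) y).range := by
    rw [← Algebra.adjoin_range_eq_range_aeval]; exact a.2
  obtain ⟨p, hp⟩ := (AlgHom.mem_range _).1 ha2
  have hp0 : p ≠ 0 := by
    rintro rfl
    exact ha0 (Subtype.ext (by simpa using hp.symm))
  refine hp0 (hs.1.eq_zero_of_aeval_eq_zero p ?_)
  rw [← hcomp, Function.comp_def, ← comp_aeval_apply, hp]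
  refine Ideal.Quotient.eq_zero_iff_mem.2 ?_
  have : (a : R) = f * b := hb
  rw [this]
  exact C.mul_mem_right _ hfC

/-- A nonconstant prime polynomial cuts out a hypersurface of transcendence degree `d - 1`. -/
theorem trdeg_hypersurface {d : ℕ} {p : MvPolynomial (Fin d) k} (hp : Prime p) :
    Algebra.trdeg k (MvPolynomial (Fin d) k ⧸ Ideal.span {p}) + 1 = d := by
  classical
  have hPd : Algebra.trdeg k (MvPolynomial (Fin d) k) = d := by
    rw [MvPolynomial.trdeg_of_isDomain]; simp
  have hq : (Ideal.span {p}).IsPrime := (Ideal.span_singleton_prime hp.ne_zero).2 hp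
  obtain ⟨i, hi⟩ : ∃ i, p.degreeOf i ≠ 0 := by
    by_contra! h
    have hc : p.totalDegree = 0 := by
      rw [MvPolynomial.totalDegree_eq_zero_iff]
      intro m hm j
      exact Nat.le_zero.1 (h j ▸ MvPolynomial.monomial_le_degreeOf j hm)
    rw [MvPolynomial.totalDegree_eq_zero_iff_eq_C] at hc
    refine hp.not_isUnit (hc ▸ IsUnit.map MvPolynomial.C (isUnit_iff_ne_zero.2 fun h0 => hp.ne_zero ?_))
    rw [hc, h0, map_zero]
  let ι := {j : Fin d // j ≠ i}
  have hind : AlgebraicIndependent k
      (fun j : ι => Ideal.Quotient.mkₐ k (Ideal.span {p}) (X j.1)) := by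
    rw [algebraicIndependent_iff]
    intro q hq0
    by_contra hne
    have hr : MvPolynomial.rename Subtype.val q ∈ Ideal.span {p} := by
      rw [← Ideal.Quotient.eq_zero_iff_mem, ← Ideal.Quotient.mkₐ_eq_mk k,
        MvPolynomial.rename_eq_aeval, MvPolynomial.comp_aeval_apply]
      exact hq0
    obtain ⟨r, hr⟩ := Ideal.mem_span_singleton.1 hr
    have hren : MvPolynomial.rename Subtype.val q ≠ 0 :=
      fun h => hne (MvPolynomial.rename_injective _ Subtype.val_injective (by simpa using h))
    have hr0 : r ≠ 0 := fun h => hren (by rw [hr, h, mul_zero])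
    have hdeg : (MvPolynomial.rename Subtype.val q).degreeOf i = 0 := by
      by_contra hd
      obtain ⟨j, -, hj⟩ := Finset.mem_image.1 (MvPolynomial.vars_rename Subtype.val q
        (MvPolynomial.mem_vars_iff_degreeOf_ne_zero.2 hd))
      exact j.2 hj
    rw [hr, MvPolynomial.degreeOf_mul_eq hp.ne_zero hr0] at hdeg
    exact hi (Nat.eq_zero_of_add_eq_zero_right hdeg)
  have hge := hind.lift_cardinalMk_le_trdeg
  have hlt := trdeg_quotient_lt (k := k) (C := Ideal.span {p})
    (by simpa [Ideal.span_singleton_eq_bot] using hp.ne_zero)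
  rw [hPd] at hlt
  obtain ⟨m, hm⟩ := Cardinal.lt_aleph0.1 (hlt.trans (Cardinal.natCast_lt_aleph0 (n := d)))
  have hcard : #ι = ((d - 1 : ℕ) : Cardinal) := by
    rw [Cardinal.mk_fintype, Fintype.card_subtype_compl]; simp
  rw [hm, hcard] at hge
  simp only [Cardinal.lift_natCast] at hge
  rw [hm] at hlt ⊢
  have h1 : d - 1 ≤ m := by exact_mod_cast hge
  have h2 : m < d := by exact_mod_cast hlt
  have h3 : m + 1 = d := by omega
  exact_mod_cast h3

/-- The transcendence degree drops by one at a minimal prime over a principal ideal. -/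
theorem trdeg_minimalPrime [Algebra.FiniteType k R] {f : R} (hf : f ≠ 0) {C : Ideal R}
    (hC : C ∈ (Ideal.span {f}).minimalPrimes) :
    Algebra.trdeg k (R ⧸ C) + 1 = Algebra.trdeg k R := by
  obtain ⟨d, g, hginj, hgfin⟩ := exists_finite_inj_algHom_of_fg k R
  let _ := g.toRingHom.toAlgebra
  have : IsScalarTower k (MvPolynomial (Fin d) k) R :=
    IsScalarTower.of_algebraMap_eq fun x => (g.commutes x).symm
  have : Module.Finite (MvPolynomial (Fin d) k) R := hgfin
  have : FaithfulSMul (MvPolynomial (Fin d) k) R :=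
    (faithfulSMul_iff_algebraMap_injective _ _).2 hginj
  have : IsNoetherianRing R := Algebra.FiniteType.isNoetherianRing k R
  have : C.IsPrime := hC.1.1
  have hfC : f ∈ C := hC.1.2 (Ideal.mem_span_singleton_self f)
  have hCne : C ≠ ⊥ := fun h => hf (by simpa [h] using hfC)
  have hC1 : C.height ≤ 1 := Ideal.height_le_one_of_isPrincipal_of_mem_minimalPrimes _ C hC
  have htd : Algebra.trdeg k R = d := by
    have := trdeg_add_eq k (MvPolynomial (Fin d) k) (A := R)
    rw [trdeg_eq_zero (R := MvPolynomial (Fin d) k) (A := R), add_zero,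
      MvPolynomial.trdeg_of_isDomain] at this
    simpa using this.symm
  set q := C.under (MvPolynomial (Fin d) k) with hqdef
  have hq : q.IsPrime := inferInstance
  have hqne : q ≠ ⊥ := fun h => hCne (Ideal.eq_bot_of_comap_eq_bot h)
  obtain ⟨p, hpq, hp⟩ := hq.exists_mem_prime_of_ne_bot hqne
  have hpP : (Ideal.span {p}).IsPrime := (Ideal.span_singleton_prime hp.ne_zero).2 hp
  have hqp : Ideal.span {p} = q := by
    refine ((Ideal.span_singleton_le_iff_mem _).2 hpq).eq_or_lt.resolve_right fun hlt => ?_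
    have : C.LiesOver q := ⟨rfl⟩
    obtain ⟨Q, hQC, hQp, hQo⟩ := Ideal.exists_ideal_lt_liesOver_of_lt (p := Ideal.span {p}) C hlt
    have hQne : Q ≠ ⊥ := by
      rintro rfl
      have : p ∈ (⊥ : Ideal R).under (MvPolynomial (Fin d) k) :=
        hQo.over ▸ Ideal.mem_span_singleton_self p
      exact hp.ne_zero ((FaithfulSMul.algebraMap_injective _ R) (by simpa using this))
    have h1 := Ideal.height_strict_mono_of_isPrime hQC
    have h2 := Ideal.height_strict_mono_of_isPrime (bot_lt_iff_ne_bot.2 hQne)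
    rw [Ideal.height_bot] at h2
    exact absurd (Order.lt_one_iff.1 (h1.trans_le hC1)) h2.ne'
  have : C.LiesOver q := ⟨rfl⟩
  have hint : Algebra.IsIntegral (MvPolynomial (Fin d) k ⧸ q) (R ⧸ C) := inferInstance
  have hinj : FaithfulSMul (MvPolynomial (Fin d) k ⧸ q) (R ⧸ C) := inferInstance
  have := trdeg_add_eq k (MvPolynomial (Fin d) k ⧸ q) (A := R ⧸ C)
  rw [trdeg_eq_zero (R := MvPolynomial (Fin d) k ⧸ q) (A := R ⧸ C), add_zero] at this
  rw [← this, htd, ← hqp]
  exact trdeg_hypersurface hp

/-- Finite extensions keep the transcendence degree. -/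
theorem trdeg_eq_of_isIntegral {S : Type u} [CommRing S] [IsDomain S] [Algebra k S] [Algebra R S]
    [IsScalarTower k R S] [FaithfulSMul R S] [Algebra.IsIntegral R S] :
    Algebra.trdeg k S = Algebra.trdeg k R := by
  have := trdeg_add_eq k R (A := S)
  rwa [trdeg_eq_zero (R := R) (A := S), add_zero, eq_comm] at this

/-- A domain of transcendence degree zero over a field is a field. -/
theorem isField_of_trdeg_eq_zero (h : Algebra.trdeg k R = 0) : IsField R := by
  have : Algebra.IsAlgebraic k R := trdeg_eq_zero_iff.1 h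
  have : Algebra.IsIntegral k R := Algebra.IsAlgebraic.isIntegral
  exact isField_of_isIntegral_of_isField' (Field.toIsField k)

end Vale.Agent.P199
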