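import Mathlib

/-!
# P199, transfer of discrete valuation rings and orders

An extended prime of a prime with a discrete valuation ring again has one, with the same orders;
and a normal birational integral extension is unchanged over such a prime.
-/

namespace Vale.Agent.P199

open IsLocalRing

variable {R S : Type*} [CommRing R] [IsDomain R] [CommRing S] [IsDomain S]

/-- The order at a prime with a discrete valuation ring. -/
noncomputable def ordAt (C : Ideal R) [C.IsPrime] [IsDiscreteValuationRing (Localization.AtPrime C)]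
    (x : R) : ℕ :=
  (IsDiscreteValuationRing.addVal (Localization.AtPrime C)
    (algebraMap R (Localization.AtPrime C) x)).toNat

/-- The extension of a prime with a discrete valuation ring has one. -/
theorem dvr_of_map [IsNoetherianRing S] (φ : R →+* S) (hφ : Function.Injective φ) {C : Ideal R}
    [C.IsPrime] [IsDiscreteValuationRing (Localization.AtPrime C)] {Q : Ideal S} [Q.IsPrime]
    (hcomap : C = Q.comap φ) (hmap : Q = C.map φ) :
    ∃ _ : IsDiscreteValuationRing (Localization.AtPrime Q), ∀ x, ordAt Q (φ x) = ordAt C x := by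
  let L := Localization.localRingHom C Q φ hcomap
  have hL : Function.Injective L := by
    rw [injective_iff_map_eq_zero]
    intro z hz
    obtain ⟨⟨a, s⟩, rfl⟩ := IsLocalization.mk'_surjective C.primeCompl z
    rw [Localization.localRingHom_mk', IsLocalization.mk'_eq_zero_iff] at hz
    obtain ⟨t, ht⟩ := hz
    rcases mul_eq_zero.1 ht with h | h
    · exact absurd (h ▸ Q.zero_mem) t.2
    · simp [(map_eq_zero_iff φ hφ).1 h]
  obtain ⟨π, hπ⟩ := IsDiscreteValuationRing.exists_irreducible (Localization.AtPrime C)
  have hmax : maximalIdeal (Localization.AtPrime Q) = Ideal.span {L π} := by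
    rw [← Localization.AtPrime.map_eq_maximalIdeal]
    rw [show Ideal.map (algebraMap S (Localization.AtPrime Q)) Q =
      Ideal.map (algebraMap S (Localization.AtPrime Q)) (C.map φ) from congrArg _ hmap]
    rw [Ideal.map_map, ← Set.image_singleton, ← Ideal.map_span, ← hπ.maximalIdeal_eq,
      ← Localization.AtPrime.map_eq_maximalIdeal, Ideal.map_map]
    congr 1
    exact RingHom.ext fun a => (Localization.localRingHom_to_map C Q φ hcomap a).symm
  have hπ0 : L π ≠ 0 := fun h => hπ.ne_zero (hL (h.trans L.map_zero.symm))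
  have hnf : ¬ IsField (Localization.AtPrime Q) := fun hf => by
    have := isField_iff_maximalIdeal_eq.1 hf
    rw [hmax, Ideal.span_singleton_eq_bot] at this
    exact hπ0 this
  have : IsDomain (Localization.AtPrime Q) :=
    IsLocalization.isDomain_localization Q.primeCompl_le_nonZeroDivisors
  have : IsNoetherianRing (Localization.AtPrime Q) :=
    IsLocalization.isNoetherianRing Q.primeCompl _ ‹_›
  have hp : (maximalIdeal (Localization.AtPrime Q)).IsPrincipal := ⟨⟨L π, hmax⟩⟩
  have key : IsDiscreteValuationRing (Localization.AtPrime Q) ↔ _ :=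
    (IsDiscreteValuationRing.TFAE _ hnf).out 0 4
  have : IsDiscreteValuationRing (Localization.AtPrime Q) := key.2 hp
  have hLπ : Irreducible (L π) := (IsDiscreteValuationRing.irreducible_iff_uniformizer _).2 hmax
  refine ⟨this, fun x => ?_⟩
  rw [ordAt, ordAt, ← Localization.localRingHom_to_map C Q φ hcomap]
  generalize algebraMap R (Localization.AtPrime C) x = z
  rcases eq_or_ne z 0 with rfl | hz
  · simp
  obtain ⟨n, v, rfl⟩ := IsDiscreteValuationRing.eq_unit_mul_pow_irreducible hz hπ
  rw [map_mul, map_pow, IsDiscreteValuationRing.addVal_def' v hπ n]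
  have h2 := IsDiscreteValuationRing.addVal_def' (Units.map (L : _ →* _) v) hLπ n
  simp only [Units.coe_map, MonoidHom.coe_coe] at h2
  rw [h2]

variable {K : Type*} [Field K] [Algebra S K] [IsFractionRing S K]

/-- Elements integral over `S` in its fraction field are fractions at a prime with normal local
ring. -/
theorem exists_mul_mem (Q : Ideal S) [Q.IsPrime] [IsIntegrallyClosed (Localization.AtPrime Q)]
    {x : K} (hx : IsIntegral S x) :
    ∃ s ∉ Q, ∃ a, algebraMap S K s * x = algebraMap S K a := by
  have hle := Q.primeCompl_le_nonZeroDivisors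
  let _ : Algebra (Localization.AtPrime Q) K :=
    IsLocalization.localizationAlgebraOfSubmonoidLe (Localization.AtPrime Q) K Q.primeCompl
      (nonZeroDivisors S) hle
  have : IsScalarTower S (Localization.AtPrime Q) K :=
    IsLocalization.localization_isScalarTower_of_submonoid_le (Localization.AtPrime Q) K
      Q.primeCompl (nonZeroDivisors S) hle
  have : IsFractionRing (Localization.AtPrime Q) K :=
    IsFractionRing.isFractionRing_of_isDomain_of_isLocalization Q.primeCompl _ K
  obtain ⟨z, hz⟩ := IsIntegrallyClosed.isIntegral_iff.1 (hx.tower_top (A := Localization.AtPrime Q))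
  obtain ⟨⟨a, s⟩, rfl⟩ := IsLocalization.mk'_surjective Q.primeCompl z
  refine ⟨s, s.2, a, ?_⟩
  rw [← hz, IsScalarTower.algebraMap_apply S (Localization.AtPrime Q) K,
    IsScalarTower.algebraMap_apply S (Localization.AtPrime Q) K a, ← map_mul]
  exact congrArg _ (IsLocalization.mk'_spec' _ a s)

/-- Over a prime with a discrete valuation ring the normalisation is unchanged. -/
theorem normal_over_dvr {T : Type*} [CommRing T] [IsDomain T] [Algebra S T] [FaithfulSMul S T]
    [Algebra T K] [IsScalarTower S T K] [FaithfulSMul T K] [Algebra.IsIntegral S T]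
    (Q : Ideal S) [Q.IsPrime] [IsDiscreteValuationRing (Localization.AtPrime Q)] :
    (∀ C C' : Ideal T, C.IsPrime → C'.IsPrime → C.under S = Q → C'.under S = Q → C = C') ∧
    ∀ (C : Ideal T) [C.IsPrime], C.under S = Q →
      (∀ t : T, ∃ s ∉ Q, ∃ a, algebraMap S T s * t = algebraMap S T a) ∧
      ∃ _ : IsDiscreteValuationRing (Localization.AtPrime C),
        ∀ x, ordAt C (algebraMap S T x) = ordAt Q x := by
  have hfrac : ∀ t : T, ∃ s ∉ Q, ∃ a, algebraMap S T s * t = algebraMap S T a := fun t => by
    obtain ⟨s, hs, a, h⟩ := exists_mul_mem (K := K) Q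
      ((Algebra.IsIntegral.isIntegral (R := S) t).map (IsScalarTower.toAlgHom S T K))
    refine ⟨s, hs, a, FaithfulSMul.algebraMap_injective T K ?_⟩
    rwa [map_mul, ← IsScalarTower.algebraMap_apply, ← IsScalarTower.algebraMap_apply]
  have hmem : ∀ (C : Ideal T), C.IsPrime → C.under S = Q → ∀ t s a, s ∉ Q →
      algebraMap S T s * t = algebraMap S T a → (t ∈ C ↔ a ∈ Q) := by
    intro C hC hCQ t s a hs h
    constructor
    · intro ht
      rw [← hCQ, Ideal.under, Ideal.mem_comap, ← h]
      exact C.mul_mem_left _ ht
    · intro ha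
      rw [← hCQ, Ideal.under, Ideal.mem_comap, ← h] at ha
      exact (hC.mem_or_mem ha).resolve_left fun hsC => hs (hCQ ▸ hsC)
  refine ⟨fun C C' hC hC' h h' => ?_, fun C hC hCQ => ⟨hfrac, ?_⟩⟩
  · ext t
    obtain ⟨s, hs, a, he⟩ := hfrac t
    rw [hmem C hC h t s a hs he, hmem C' hC' h' t s a hs he]
  let L := Localization.localRingHom Q C (algebraMap S T) hCQ.symm
  have hsurj : Function.Surjective L := by
    intro z
    obtain ⟨⟨t, u⟩, rfl⟩ := IsLocalization.mk'_surjective C.primeCompl z
    obtain ⟨s, hs, a, he⟩ := hfrac t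
    obtain ⟨s', hs', a', he'⟩ := hfrac u
    have ha' : a' ∉ Q := fun h => u.2 ((hmem C hC hCQ u s' a' hs' he').2 h)
    refine ⟨IsLocalization.mk' _ (a * s') ⟨s * a', Q.primeCompl.mul_mem hs ha'⟩, ?_⟩
    rw [Localization.localRingHom_mk', IsLocalization.mk'_eq_iff_eq]
    congr 1
    simp only [map_mul, ← he, ← he']
    ring
  have hinj : Function.Injective L := by
    rw [injective_iff_map_eq_zero]
    intro z hz
    obtain ⟨⟨a, s⟩, rfl⟩ := IsLocalization.mk'_surjective Q.primeCompl z
    rw [Localization.localRingHom_mk', IsLocalization.mk'_eq_zero_iff] at hz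
    obtain ⟨t, ht⟩ := hz
    rcases mul_eq_zero.1 ht with h | h
    · exact absurd (h ▸ C.zero_mem) t.2
    · simp [(map_eq_zero_iff _ (FaithfulSMul.algebraMap_injective S T)).1 h]
  let e := RingEquiv.ofBijective L ⟨hinj, hsurj⟩
  have : IsDomain (Localization.AtPrime C) :=
    IsLocalization.isDomain_localization C.primeCompl_le_nonZeroDivisors
  have : IsDiscreteValuationRing (Localization.AtPrime C) :=
    IsDiscreteValuationRing.RingEquivClass.isDiscreteValuationRing e
  refine ⟨this, fun x => ?_⟩
  rw [ordAt, ordAt, ← Localization.localRingHom_to_map Q C (algebraMap S T) hCQ.symm]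
  generalize algebraMap S (Localization.AtPrime Q) x = z
  rcases eq_or_ne z 0 with rfl | hz
  · simp
  obtain ⟨π, hπ⟩ := IsDiscreteValuationRing.exists_irreducible (Localization.AtPrime Q)
  obtain ⟨n, v, rfl⟩ := IsDiscreteValuationRing.eq_unit_mul_pow_irreducible hz hπ
  rw [map_mul, map_pow, IsDiscreteValuationRing.addVal_def' v hπ n]
  have hLπ : Irreducible (L π) := (MulEquiv.irreducible_iff e.toMulEquiv).2 hπ
  have h2 := IsDiscreteValuationRing.addVal_def' (Units.map (L : _ →* _) v) hLπ n
  simp only [Units.coe_map, MonoidHom.coe_coe] at h2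
  rw [h2]

end Vale.Agent.P199
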