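import Mathlib

/-!
# P199, normalisation of finitely generated domains in characteristic zero
-/

namespace Vale.Agent.P199

universe u

variable {R K : Type u} [CommRing R] [IsDomain R] [Field K] [Algebra R K] [IsFractionRing R K]

/-- The normalisation of a finitely generated domain is a finite module. -/
theorem integralClosure_finite (k : Type u) [Field k] [CharZero k] [Algebra k R]
    [Algebra.FiniteType k R] :
    Module.Finite R (integralClosure R K) := by
  classical
  obtain ⟨d, g, hginj, hgfin⟩ := exists_finite_inj_algHom_of_fg k R
  set P := MvPolynomial (Fin d) k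
  let _ := g.toRingHom.toAlgebra
  have : Module.Finite P R := hgfin
  let _ : Algebra P K := ((algebraMap R K).comp g.toRingHom).toAlgebra
  have : IsScalarTower P R K := IsScalarTower.of_algebraMap_eq fun x => rfl
  have : FaithfulSMul P K := (faithfulSMul_iff_algebraMap_injective _ _).2
    ((IsFractionRing.injective R K).comp hginj)
  let _ := FractionRing.liftAlgebra P K
  have : IsScalarTower P (FractionRing P) K := inferInstance
  have hint : ∀ x : R, IsIntegral (FractionRing P) (algebraMap R K x) := fun x =>
    ((Algebra.IsIntegral.isIntegral (R := P) x).map (IsScalarTower.toAlgHom P R K)).tower_top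
  obtain ⟨G, hG⟩ := (Module.Finite.fg_top : (⊤ : Submodule P R).FG)
  set F := IntermediateField.adjoin (FractionRing P) ((algebraMap R K) '' (G : Set R))
  have hR : ∀ x : R, algebraMap R K x ∈ F := by
    intro x
    have hx : x ∈ Submodule.span P (G : Set R) := hG ▸ Submodule.mem_top
    induction hx using Submodule.span_induction with
    | mem y hy => exact IntermediateField.subset_adjoin _ _ ⟨y, hy, rfl⟩
    | zero => simp [F.zero_mem]
    | add a b _ _ ha hb => rw [map_add]; exact F.add_mem ha hb
    | smul c a _ ha =>
      rw [Algebra.smul_def, map_mul, ← IsScalarTower.algebraMap_apply,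
        IsScalarTower.algebraMap_apply P (FractionRing P) K]
      exact F.mul_mem (F.algebraMap_mem _) ha
  have hFtop : F = ⊤ := eq_top_iff.2 fun x _ => by
    obtain ⟨a, b, -, rfl⟩ := IsFractionRing.div_surjective (A := R) x
    exact F.div_mem (hR a) (hR b)
  have hFfin : FiniteDimensional (FractionRing P) F := by
    have : Finite ((algebraMap R K) '' (G : Set R)) := (G.finite_toSet.image _).to_subtype
    exact IntermediateField.finiteDimensional_adjoin fun x ⟨y, _, hy⟩ => hy ▸ hint y
  rw [hFtop] at hFfin
  have : FiniteDimensional (FractionRing P) K :=
    Module.Finite.equiv IntermediateField.topEquiv.toLinearEquiv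
  have : CharZero (FractionRing P) :=
    charZero_of_injective_algebraMap (algebraMap k (FractionRing P)).injective
  have hcl : IsIntegralClosure (integralClosure R K) P K := by
    refine ⟨Subtype.val_injective, fun {x} => ⟨fun hx => ⟨⟨x, hx.tower_top⟩, rfl⟩, ?_⟩⟩
    rintro ⟨y, rfl⟩
    exact isIntegral_trans _ y.2
  have : Module.Finite P (integralClosure R K) :=
    IsIntegralClosure.finite P (FractionRing P) K (integralClosure R K)
  exact Module.Finite.of_restrictScalars_finite P R _

/-- The normalisation is again finitely generated over the field. -/
theorem integralClosure_finiteType (k : Type u) [Field k] [CharZero k] [Algebra k R]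
    [Algebra.FiniteType k R] :
    Algebra.FiniteType R (integralClosure R K) :=
  have := integralClosure_finite k (R := R) (K := K)
  inferInstance

/-- Summary of the properties of the normalisation. -/
theorem integralClosure_props (k : Type u) [Field k] [CharZero k] [Algebra k R]
    [Algebra.FiniteType k R] [Algebra k K] [IsScalarTower k R K] :
    Algebra.FiniteType k (integralClosure R K) ∧ IsNoetherianRing (integralClosure R K) ∧
      IsIntegrallyClosed (integralClosure R K) ∧ IsFractionRing (integralClosure R K) K := by
  have := integralClosure_finiteType k (R := R) (K := K)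
  have h1 : Algebra.FiniteType k (integralClosure R K) := Algebra.FiniteType.trans (S := R) ‹_› ‹_›
  refine ⟨h1, Algebra.FiniteType.isNoetherianRing k _,
    integralClosure.isIntegrallyClosedOfFiniteExtension K, ?_⟩
  exact integralClosure.isFractionRing_of_finite_extension K K

/-- A height-one localisation of a normal Noetherian domain is a discrete valuation ring. -/
theorem isDiscreteValuationRing_atPrime {A : Type*} [CommRing A] [IsDomain A] [IsNoetherianRing A]
    [IsIntegrallyClosed A] (C : Ideal A) [C.IsPrime] (hC : C.height = 1) :
    IsDiscreteValuationRing (Localization.AtPrime C) := by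
  have : IsIntegrallyClosed (Localization.AtPrime C) :=
    isIntegrallyClosed_of_isLocalization (Localization.AtPrime C) C.primeCompl
      C.primeCompl_le_nonZeroDivisors
  have hh : (IsLocalRing.maximalIdeal (Localization.AtPrime C)).height = 1 := by
    rw [← IsLocalization.height_under C.primeCompl, Localization.AtPrime.under_maximalIdeal, hC]
  have hne : IsLocalRing.maximalIdeal (Localization.AtPrime C) ≠ ⊥ := by
    intro h
    rw [h, Ideal.height_bot] at hh
    exact zero_ne_one hh
  have hnf : ¬ IsField (Localization.AtPrime C) := fun h =>
    hne (IsLocalRing.isField_iff_maximalIdeal_eq.1 h)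
  have key : IsDiscreteValuationRing (Localization.AtPrime C) ↔ _ :=
    (IsDiscreteValuationRing.TFAE _ hnf).out 0 3
  refine key.2 ⟨inferInstance,
    IsLocalRing.maximalIdeal _, ⟨hne, inferInstance⟩, fun Q ⟨hQne, hQ⟩ => ?_⟩
  refine (IsLocalRing.le_maximalIdeal_of_isPrime Q).eq_or_lt.resolve_right fun hlt => ?_
  have h1 := Ideal.height_strict_mono_of_isPrime hlt
  have h2 := Ideal.height_strict_mono_of_isPrime (bot_lt_iff_ne_bot.2 hQne)
  rw [Ideal.height_bot] at h2
  rw [hh] at h1
  exact h2.ne' (Order.lt_one_iff.1 h1)

end Vale.Agent.P199
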