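import Mathlib
import Vale.Agent.P199.CommAlg.Trdeg

/-!
# P199, tensor products of finitely generated domains over an algebraically closed field
-/

namespace Vale.Agent.P199

open TensorProduct

universe u

variable {k A B : Type u} [Field k] [IsAlgClosed k] [CommRing A] [Algebra k A] [CommRing B]
  [Algebra k B]

/-- An element of a finitely generated domain vanishing at all points is zero. -/
theorem eq_zero_of_points [IsDomain A] [Algebra.FiniteType k A] {a : A}
    (h : ∀ φ : A →ₐ[k] k, φ a = 0) : a = 0 := by
  have : IsJacobsonRing A := isJacobsonRing_of_finiteType (A := k)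
  have hj : a ∈ (⊥ : Ideal A).jacobson := by
    refine Submodule.mem_sInf.2 fun m ⟨_, hm⟩ => ?_
    let _ : Field (A ⧸ m) := Ideal.Quotient.field m
    have : Module.Finite k (A ⧸ m) := finite_of_finite_type_of_isJacobsonRing k (A ⧸ m)
    let e : k ≃ₐ[k] A ⧸ m := AlgEquiv.ofBijective (Algebra.ofId k (A ⧸ m))
      (IsAlgClosed.algebraMap_bijective_of_isIntegral (k := k) (K := A ⧸ m))
    have h0 := h (e.symm.toAlgHom.comp (Ideal.Quotient.mkₐ k m))
    exact Ideal.Quotient.eq_zero_iff_mem.1 (e.symm.injective (h0.trans (map_zero e.symm).symm))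
  rw [IsJacobsonRing.out ‹_› Ideal.isPrime_bot.isRadical] at hj
  exact hj

/-- The tensor product of two domains, one finitely generated, has no zero divisors. -/
theorem isDomain_tensor [IsDomain A] [IsDomain B] [Algebra.FiniteType k A] :
    IsDomain (A ⊗[k] B) := by
  let b := Module.Free.chooseBasis k B
  let co : A ⊗[k] B ≃ₗ[k] _ := TensorProduct.equivFinsuppOfBasisRight (M := A) b
  let ev : (A →ₐ[k] k) → A ⊗[k] B →ₐ[k] B := fun φ =>
    Algebra.TensorProduct.lift ((Algebra.ofId k B).comp φ) (AlgHom.id k B) fun _ _ => Commute.all _ _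
  have hev : ∀ φ u, b.repr (ev φ u) = Finsupp.mapRange φ (map_zero φ) (co u) := by
    intro φ u
    induction u using TensorProduct.induction_on with
    | zero => simp
    | tmul x y =>
      ext i
      have e : ev φ (x ⊗ₜ[k] y) = φ x • y := by simp [ev, Algebra.smul_def, mul_comm]
      rw [e, map_smul]
      simp [co, mul_comm]
    | add u v hu hv =>
      ext i
      simp [hu, hv]
  have hz : ∀ u v : A ⊗[k] B, u * v = 0 → u = 0 ∨ v = 0 := by
    intro u v huv
    by_contra! hne
    obtain ⟨i, hi⟩ : ∃ i, co u i ≠ 0 := by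
      by_contra! h; exact hne.1 (co.injective (by ext i; simpa using h i))
    obtain ⟨j, hj⟩ : ∃ j, co v j ≠ 0 := by
      by_contra! h; exact hne.2 (co.injective (by ext i; simpa using h i))
    refine mul_ne_zero hi hj (eq_zero_of_points (k := k) fun φ => ?_)
    have : ev φ u * ev φ v = 0 := by rw [← map_mul, huv, map_zero]
    rcases mul_eq_zero.1 this with h0 | h0
    · have := congrArg (fun f => f i) (hev φ u)
      simp only [h0, map_zero, Finsupp.coe_zero, Pi.zero_apply, Finsupp.mapRange_apply] at this
      rw [map_mul, ← this, zero_mul]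
    · have := congrArg (fun f => f j) (hev φ v)
      simp only [h0, map_zero, Finsupp.coe_zero, Pi.zero_apply, Finsupp.mapRange_apply] at this
      rw [map_mul, ← this, mul_zero]
  have : NoZeroDivisors (A ⊗[k] B) := ⟨fun {u v} => hz u v⟩
  have : Nontrivial (A ⊗[k] B) :=
    (Algebra.TensorProduct.includeLeft_injective (S := k) (A := A) (B := B)
      (algebraMap k B).injective).nontrivial
  exact NoZeroDivisors.to_isDomain _

/-- Transcendence degrees add in tensor products. -/
theorem trdeg_tensor [IsDomain A] [IsDomain B] [Algebra.FiniteType k A] [Algebra.FiniteType k B] :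
    Algebra.trdeg k (A ⊗[k] B) = Algebra.trdeg k A + Algebra.trdeg k B := by
  have := isDomain_tensor (k := k) (A := A) (B := B)
  obtain ⟨a, g, hg, hgf⟩ := exists_finite_inj_algHom_of_fg k A
  obtain ⟨b, h, hh, hhf⟩ := exists_finite_inj_algHom_of_fg k B
  let P := MvPolynomial (Fin a) k
  let Q := MvPolynomial (Fin b) k
  let F : P ⊗[k] Q →ₐ[k] A ⊗[k] B := Algebra.TensorProduct.map g h
  have hF : Function.Injective F :=
    TensorProduct.map_injective_of_flat_flat g.toLinearMap h.toLinearMap hg hh
  have hFi : F.toRingHom.IsIntegral := by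
    intro z
    induction z using TensorProduct.induction_on with
    | zero => exact RingHom.isIntegralElem_zero _
    | tmul x y =>
      have hx : F.toRingHom.IsIntegralElem (x ⊗ₜ[k] (1 : B)) := by
        obtain ⟨p, hp, he⟩ := hgf.to_isIntegral x
        refine ⟨p.map (Algebra.TensorProduct.includeLeft : P →ₐ[k] P ⊗[k] Q).toRingHom, hp.map _, ?_⟩
        have hc : F.toRingHom.comp (Algebra.TensorProduct.includeLeft : P →ₐ[k] P ⊗[k] Q).toRingHom
            = (Algebra.TensorProduct.includeLeft : A →ₐ[k] A ⊗[k] B).toRingHom.comp g.toRingHom :=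
          RingHom.ext fun w => by simp [F]
        rw [Polynomial.eval₂_map, hc]
        have := Polynomial.hom_eval₂ p g.toRingHom
          (Algebra.TensorProduct.includeLeft : A →ₐ[k] A ⊗[k] B).toRingHom x
        rw [he, map_zero] at this
        exact this.symm
      have hy : F.toRingHom.IsIntegralElem ((1 : A) ⊗ₜ[k] y) := by
        obtain ⟨p, hp, he⟩ := hhf.to_isIntegral y
        refine ⟨p.map (Algebra.TensorProduct.includeRight : Q →ₐ[k] P ⊗[k] Q).toRingHom, hp.map _, ?_⟩
        have hc : F.toRingHom.comp (Algebra.TensorProduct.includeRight : Q →ₐ[k] P ⊗[k] Q).toRingHom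
            = (Algebra.TensorProduct.includeRight : B →ₐ[k] A ⊗[k] B).toRingHom.comp h.toRingHom :=
          RingHom.ext fun w => by simp [F]
        rw [Polynomial.eval₂_map, hc]
        have := Polynomial.hom_eval₂ p h.toRingHom
          (Algebra.TensorProduct.includeRight : B →ₐ[k] A ⊗[k] B).toRingHom y
        rw [he, map_zero] at this
        exact this.symm
      have := hx.mul _ hy
      rwa [Algebra.TensorProduct.tmul_mul_tmul, mul_one, one_mul] at this
    | add u v hu hv => exact hu.add _ hv
  have : IsDomain (P ⊗[k] Q) := hF.isDomain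
  let _ := F.toRingHom.toAlgebra
  have : IsScalarTower k (P ⊗[k] Q) (A ⊗[k] B) :=
    IsScalarTower.of_algebraMap_eq fun x => (F.commutes x).symm
  have : FaithfulSMul (P ⊗[k] Q) (A ⊗[k] B) := (faithfulSMul_iff_algebraMap_injective _ _).2 hF
  have : Algebra.IsIntegral (P ⊗[k] Q) (A ⊗[k] B) := ⟨hFi⟩
  rw [trdeg_eq_of_isIntegral (R := P ⊗[k] Q)]
  have key : ∀ {C : Type u} [CommRing C] [IsDomain C] [Algebra k C] [Algebra.FiniteType k C] {d : ℕ}
      (f : MvPolynomial (Fin d) k →ₐ[k] C), Function.Injective f → f.Finite →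
      Algebra.trdeg k C = d := by
    intro C _ _ _ _ d f hf hff
    let _ := f.toRingHom.toAlgebra
    have : IsScalarTower k (MvPolynomial (Fin d) k) C :=
      IsScalarTower.of_algebraMap_eq fun x => (f.commutes x).symm
    have : FaithfulSMul (MvPolynomial (Fin d) k) C :=
      (faithfulSMul_iff_algebraMap_injective _ _).2 hf
    have : Module.Finite (MvPolynomial (Fin d) k) C := hff
    rw [trdeg_eq_of_isIntegral (R := MvPolynomial (Fin d) k), MvPolynomial.trdeg_of_isDomain]
    simp
  rw [key g hg hgf, key h hh hhf,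
    ((MvPolynomial.tensorEquivSum k (Fin a) (Fin b) k).restrictScalars k).trdeg_eq,
    MvPolynomial.trdeg_of_isDomain]
  simp

variable [IsDomain A] [IsDomain B] [Algebra.FiniteType k A]

omit [IsAlgClosed k] [IsDomain A] [IsDomain B] [Algebra.FiniteType k A] in
/-- The extension of an ideal of the left factor is the kernel of the quotient map. -/
theorem map_left_eq_ker (C : Ideal A) :
    C.map (Algebra.TensorProduct.includeLeft : A →ₐ[k] A ⊗[k] B) =
      RingHom.ker (Algebra.TensorProduct.map (Ideal.Quotient.mkₐ k C) (AlgHom.id k B)) := by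
  rw [Algebra.TensorProduct.rTensor_ker _ (Ideal.Quotient.mkₐ_surjective k C)]
  congr 1
  exact (Ideal.Quotient.mkₐ_ker k C).symm

omit [IsDomain A] in
/-- Extended primes are prime. -/
theorem isPrime_map_left (C : Ideal A) [C.IsPrime] :
    (C.map (Algebra.TensorProduct.includeLeft : A →ₐ[k] A ⊗[k] B)).IsPrime := by
  have := isDomain_tensor (k := k) (A := A ⧸ C) (B := B)
  rw [map_left_eq_ker]
  exact RingHom.ker_isPrime _

omit [IsAlgClosed k] [IsDomain A] [Algebra.FiniteType k A] in
/-- An extended ideal contracts to itself. -/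
theorem comap_map_left (C : Ideal A) :
    (C.map (Algebra.TensorProduct.includeLeft : A →ₐ[k] A ⊗[k] B)).comap
      (Algebra.TensorProduct.includeLeft : A →ₐ[k] A ⊗[k] B) = C := by
  rw [map_left_eq_ker]
  ext x
  rw [Ideal.mem_comap, RingHom.mem_ker]
  simp only [Algebra.TensorProduct.includeLeft_apply, Algebra.TensorProduct.map_tmul,
    Ideal.Quotient.mkₐ_eq_mk, map_one]
  rw [← Ideal.Quotient.eq_zero_iff_mem]
  exact map_eq_zero_iff (Algebra.TensorProduct.includeLeft : A ⧸ C →ₐ[k] (A ⧸ C) ⊗[k] B)
    (Algebra.TensorProduct.includeLeft_injective (algebraMap k B).injective)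

omit [IsDomain A] in
/-- The transcendence degree of the quotient by an extended prime. -/
theorem trdeg_quotient_map_left [Algebra.FiniteType k B] (C : Ideal A) [C.IsPrime] :
    Algebra.trdeg k ((A ⊗[k] B) ⧸ C.map (Algebra.TensorProduct.includeLeft : A →ₐ[k] A ⊗[k] B)) =
      Algebra.trdeg k (A ⧸ C) + Algebra.trdeg k B := by
  rw [← trdeg_tensor]
  let q : A ⊗[k] B →ₐ[k] (A ⧸ C) ⊗[k] B :=
    Algebra.TensorProduct.map (Ideal.Quotient.mkₐ k C) (AlgHom.id k B)
  have hq : Function.Surjective q :=
    TensorProduct.map_surjective (Ideal.Quotient.mkₐ_surjective k C) Function.surjective_id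
  exact ((Ideal.quotientEquivAlgOfEq k (map_left_eq_ker C)).trans
    (Ideal.quotientKerAlgEquivOfSurjective hq)).trdeg_eq

end Vale.Agent.P199
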